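import Vale.Agent.P227.End.Soft

/-! # P227: end reduction, part C: the local variance inequality gives the soft inequality -/

open MeasureTheory Set Metric Filter Topology
open scoped ENNReal NNReal

namespace Vale.Agent.P227.End

/-- a smooth wall with its first two derivatives and growth bounds -/
structure Wall (v v1 v2 : ℝ → ℝ) : Prop where
  d1 : ∀ t, HasDerivAt v (v1 t) t
  d2 : ∀ t, HasDerivAt v1 (v2 t) t
  cont2 : Continuous v2
  lower : ∀ t, |t| - 1 ≤ v t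
  growth : ∃ C, 0 ≤ C ∧ ∀ t, |v1 t| ≤ C * (1 + |t|) ∧ |v2 t| ≤ C

/-- Gibbs weight -/
noncomputable def gib {n J : ℕ} (v : ℝ → ℝ) (e : ℝ) (ν : Fin J → EV n) (x : EV n) : ℝ :=
  Real.exp (-(∑ j, v (inner ℝ x (ν j))) - e * ‖x‖ ^ 2)

/-- first derivative observable -/
noncomputable def obs1 {n J : ℕ} (v1 : ℝ → ℝ) (ν : Fin J → EV n) (ρ : Fin J → ℝ) (x : EV n) : ℝ :=
  ∑ j, ρ j * ((inner ℝ x (ν j) : ℝ) * v1 (inner ℝ x (ν j)))

/-- second derivative observable -/
noncomputable def obs2 {n J : ℕ} (v1 v2 : ℝ → ℝ) (ν : Fin J → EV n) (ρ : Fin J → ℝ) (x : EV n) : ℝ :=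
  ∑ j, ρ j ^ 2 * ((inner ℝ x (ν j) : ℝ) * v1 (inner ℝ x (ν j)) + (inner ℝ x (ν j) : ℝ) ^ 2 * v2 (inner ℝ x (ν j)))

/-- the local inequality `Var (∑ ρ_j w_j v'(w_j)) ≤ ∑ ρ_j² E [w_j v'(w_j) + w_j² v''(w_j)]`, unnormalised -/
def LocalIneq (v v1 v2 : ℝ → ℝ) (e : ℝ) : Prop :=
  ∀ (n J : ℕ) (ν : Fin J → EV n), 0 < n → (∀ x : EV n, (∀ j, (inner ℝ x (ν j) : ℝ) = 0) → x = 0) → ∀ ρ : Fin J → ℝ,
    (∫ x, obs1 v1 ν ρ x ^ 2 * gib v e ν x) * (∫ x, gib v e ν x) ≤
      (∫ x, obs1 v1 ν ρ x * gib v e ν x) ^ 2 + (∫ x, obs2 v1 v2 ν ρ x * gib v e ν x) * (∫ x, gib v e ν x)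

/-- polynomial times exponential -/
theorem integrable_pow_exp {n : ℕ} {a : ℝ} (ha : 0 < a) (m : ℕ) :
    Integrable (fun x : EV n => (1 + ‖x‖) ^ m * Real.exp (-(a * ‖x‖))) := by
  have h1 : Integrable (fun x : EV n => (m.factorial / (a / 2) ^ m * Real.exp (a / 2)) * Real.exp (-(a / 2 * ‖x‖))) :=
    (integrable_exp_neg_norm (half_pos ha)).const_mul _
  refine h1.mono' (by fun_prop) (Eventually.of_forall fun x => ?_)
  have hp : (0 : ℝ) < 1 + ‖x‖ := by positivity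
  rw [Real.norm_eq_abs, abs_of_pos (mul_pos (pow_pos hp _) (Real.exp_pos _))]
  have h3 := Real.pow_div_factorial_le_exp (a / 2 * (1 + ‖x‖)) (by positivity) m
  have h6 : (0 : ℝ) < m.factorial := by exact_mod_cast Nat.factorial_pos _
  have h7 : (1 + ‖x‖) ^ m ≤ m.factorial / (a / 2) ^ m * Real.exp (a / 2 * (1 + ‖x‖)) := by
    rw [mul_pow, div_le_iff₀ h6] at h3
    have h8 : (0 : ℝ) < (a / 2) ^ m := by positivity
    rw [div_mul_eq_mul_div, le_div_iff₀ h8]
    linarith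
  calc (1 + ‖x‖) ^ m * Real.exp (-(a * ‖x‖)) ≤ (m.factorial / (a / 2) ^ m * Real.exp (a / 2 * (1 + ‖x‖))) * Real.exp (-(a * ‖x‖)) :=
        mul_le_mul_of_nonneg_right h7 (Real.exp_pos _).le
    _ = _ := by
      rw [mul_assoc, mul_assoc, ← Real.exp_add, ← Real.exp_add]
      congr 2
      ring

section
variable {n J : ℕ} (ν : Fin J → EV n) (s ρ : Fin J → ℝ)

/-- moving family of vectors -/
noncomputable def mv (r : ℝ) (j : Fin J) : EV n := Real.exp (-(s j + r * ρ j)) • ν j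

theorem inner_mv (r : ℝ) (j : Fin J) (x : EV n) : (inner ℝ x (mv ν s ρ r j) : ℝ) = Real.exp (-(s j + r * ρ j)) * inner ℝ x (ν j) := by
  rw [mv, inner_smul_right]

theorem hasDerivAt_inner_mv (r : ℝ) (j : Fin J) (x : EV n) :
    HasDerivAt (fun r => (inner ℝ x (mv ν s ρ r j) : ℝ)) (-ρ j * inner ℝ x (mv ν s ρ r j)) r := by
  have h1 : HasDerivAt (fun r : ℝ => -(s j + r * ρ j)) (-ρ j) r := by
    have h0 : HasDerivAt (fun r : ℝ => s j + r * ρ j) (ρ j) r := by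
      simpa using ((hasDerivAt_id r).mul_const (ρ j)).const_add (s j)
    exact h0.neg
  have h2 := h1.exp.mul_const (inner ℝ x (ν j) : ℝ)
  refine HasDerivAt.congr_deriv (h2.congr_of_eventuallyEq (Eventually.of_forall fun r => inner_mv ν s ρ r j x)) ?_
  rw [inner_mv]
  ring

variable {v v1 v2 : ℝ → ℝ} (hw : Wall v v1 v2) (e : ℝ)

include hw

theorem hasDerivAt_gib (r : ℝ) (x : EV n) :
    HasDerivAt (fun r => gib v e (mv ν s ρ r) x) (obs1 v1 (mv ν s ρ r) ρ x * gib v e (mv ν s ρ r) x) r := by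
  have h1 : HasDerivAt (fun r => ∑ j, v (inner ℝ x (mv ν s ρ r j))) (∑ j, v1 (inner ℝ x (mv ν s ρ r j)) * (-ρ j * inner ℝ x (mv ν s ρ r j))) r := by
    refine HasDerivAt.fun_sum fun j _ => ?_
    exact (hw.d1 _).comp r (hasDerivAt_inner_mv ν s ρ r j x)
  have h2 := ((h1.neg).sub_const (e * ‖x‖ ^ 2)).exp
  refine HasDerivAt.congr_deriv h2 ?_
  simp only [gib, obs1, Pi.neg_apply]
  rw [mul_comm]
  congr 1
  rw [← Finset.sum_neg_distrib]
  refine Finset.sum_congr rfl fun j _ => ?_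
  ring

theorem hasDerivAt_obs1 (r : ℝ) (x : EV n) :
    HasDerivAt (fun r => obs1 v1 (mv ν s ρ r) ρ x) (-obs2 v1 v2 (mv ν s ρ r) ρ x) r := by
  have h1 : HasDerivAt (fun r => obs1 v1 (mv ν s ρ r) ρ x)
      (∑ j, ρ j * ((-ρ j * inner ℝ x (mv ν s ρ r j)) * v1 (inner ℝ x (mv ν s ρ r j)) +
        inner ℝ x (mv ν s ρ r j) * (v2 (inner ℝ x (mv ν s ρ r j)) * (-ρ j * inner ℝ x (mv ν s ρ r j))))) r := by
    unfold obs1
    refine HasDerivAt.fun_sum fun j _ => ?_
    have hd := hasDerivAt_inner_mv ν s ρ r j x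
    exact (hd.mul ((hw.d2 _).comp r hd)).const_mul (ρ j)
  refine HasDerivAt.congr_deriv h1 ?_
  rw [obs2, ← Finset.sum_neg_distrib]
  refine Finset.sum_congr rfl fun j _ => ?_
  ring

theorem hasDerivAt_obs1_gib (r : ℝ) (x : EV n) :
    HasDerivAt (fun r => obs1 v1 (mv ν s ρ r) ρ x * gib v e (mv ν s ρ r) x)
      ((obs1 v1 (mv ν s ρ r) ρ x ^ 2 - obs2 v1 v2 (mv ν s ρ r) ρ x) * gib v e (mv ν s ρ r) x) r := by
  refine HasDerivAt.congr_deriv ((hasDerivAt_obs1 ν s ρ hw r x).mul (hasDerivAt_gib ν s ρ hw e r x)) ?_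
  ring

theorem continuous_v : Continuous v := continuous_iff_continuousAt.2 fun t => (hw.d1 t).continuousAt
theorem continuous_v1 : Continuous v1 := continuous_iff_continuousAt.2 fun t => (hw.d2 t).continuousAt

theorem continuous_gib (ν : Fin J → EV n) : Continuous (gib v e ν) := by
  have := continuous_v hw
  unfold gib
  refine Real.continuous_exp.comp ?_
  refine Continuous.sub (Continuous.neg (continuous_finsetSum _ fun j _ => this.comp ?_)) (by fun_prop)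
  fun_prop

theorem continuous_obs1 (ν : Fin J → EV n) (ρ : Fin J → ℝ) : Continuous (obs1 v1 ν ρ) := by
  have := continuous_v1 hw
  unfold obs1
  refine continuous_finsetSum _ fun j _ => ?_
  refine continuous_const.mul (Continuous.mul (by fun_prop) (this.comp (by fun_prop)))

theorem continuous_obs2 (ν : Fin J → EV n) (ρ : Fin J → ℝ) : Continuous (obs2 v1 v2 ν ρ) := by
  have h1 := continuous_v1 hw
  have h2 := hw.cont2
  unfold obs2
  refine continuous_finsetSum _ fun j _ => ?_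
  refine continuous_const.mul (Continuous.add (Continuous.mul (by fun_prop) (h1.comp (by fun_prop)))
    (Continuous.mul (by fun_prop) (h2.comp (by fun_prop))))

/-- bounds for the observables -/
theorem bound_obs (hν : ∀ x : EV n, (∀ j, (inner ℝ x (ν j) : ℝ) = 0) → x = 0) (he : 0 ≤ e) (R : ℝ) (hR : 0 ≤ R) :
    ∃ a P : ℝ, 0 < a ∧ 0 ≤ P ∧ ∀ r : ℝ, |r| ≤ R → ∀ x : EV n,
      |gib v e (mv ν s ρ r) x| ≤ P * Real.exp (-(a * ‖x‖)) ∧ |obs1 v1 (mv ν s ρ r) ρ x| ≤ P * (1 + ‖x‖) ^ 2 ∧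
      |obs2 v1 v2 (mv ν s ρ r) ρ x| ≤ P * (1 + ‖x‖) ^ 2 := by
  obtain ⟨C, hC0, hC⟩ := hw.growth
  obtain ⟨a, ha, hab⟩ := exists_norm_le ν hν (fun _ => 1) (fun _ => one_pos)
  set S : ℝ := ∑ j, (|s j| + R * |ρ j|) with hS
  have hSj : ∀ j, |s j| + R * |ρ j| ≤ S := fun j =>
    Finset.single_le_sum (f := fun j => |s j| + R * |ρ j|) (fun i _ => by positivity) (Finset.mem_univ j)
  have hexp : ∀ r : ℝ, |r| ≤ R → ∀ j, Real.exp (-S) ≤ Real.exp (-(s j + r * ρ j)) ∧ Real.exp (-(s j + r * ρ j)) ≤ Real.exp S := by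
    intro r hr j
    have h1 : |s j + r * ρ j| ≤ S := by
      refine (abs_add_le _ _).trans (le_trans ?_ (hSj j))
      rw [abs_mul]
      have := mul_le_mul_of_nonneg_right hr (abs_nonneg (ρ j))
      linarith
    have h2 := abs_le.1 h1
    constructor <;> refine Real.exp_le_exp.2 ?_ <;> linarith [h2.1, h2.2]
  set N : ℝ := ∑ j, ‖ν j‖ with hN
  have hNj : ∀ j, ‖ν j‖ ≤ N := fun j => Finset.single_le_sum (f := fun j => ‖ν j‖) (fun i _ => norm_nonneg _) (Finset.mem_univ j)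
  have hN0 : 0 ≤ N := Finset.sum_nonneg fun i _ => norm_nonneg _
  set M : ℝ := Real.exp S * N with hM
  have hM0 : 0 ≤ M := mul_nonneg (Real.exp_pos _).le hN0
  have hwj : ∀ r : ℝ, |r| ≤ R → ∀ (x : EV n) j, |(inner ℝ x (mv ν s ρ r j) : ℝ)| ≤ M * (1 + ‖x‖) := by
    intro r hr x j
    rw [inner_mv, abs_mul, abs_of_pos (Real.exp_pos _), hM, mul_assoc]
    refine mul_le_mul (hexp r hr j).2 ?_ (abs_nonneg _) (Real.exp_pos _).le
    have h1 := abs_real_inner_le_norm x (ν j)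
    have h2 : ‖x‖ * ‖ν j‖ ≤ (1 + ‖x‖) * N := mul_le_mul (by linarith) (hNj j) (norm_nonneg _) (by positivity)
    linarith
  set T : ℝ := ∑ j, |ρ j| with hT
  set T2 : ℝ := ∑ j, ρ j ^ 2 with hT2
  have hT0 : 0 ≤ T := Finset.sum_nonneg fun i _ => abs_nonneg _
  have hT20 : 0 ≤ T2 := Finset.sum_nonneg fun i _ => sq_nonneg _
  set P1 : ℝ := T * (M * (C * (1 + M))) with hP1
  set P2 : ℝ := T2 * (M * (C * (1 + M)) + M ^ 2 * C) with hP2
  have hP10 : 0 ≤ P1 := by positivity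
  have hP20 : 0 ≤ P2 := by positivity
  refine ⟨Real.exp (-S) * a, Real.exp J + P1 + P2, by positivity, by positivity, fun r hr x => ?_⟩
  have hx1 : (1 : ℝ) ≤ 1 + ‖x‖ := by linarith [norm_nonneg x]
  have hbase : ∀ j, |(inner ℝ x (mv ν s ρ r j) : ℝ) * v1 (inner ℝ x (mv ν s ρ r j))| ≤ M * (C * (1 + M)) * (1 + ‖x‖) ^ 2 := by
    intro j
    rw [abs_mul]
    have h1 := hwj r hr x j
    have h2 := (hC (inner ℝ x (mv ν s ρ r j))).1
    have h3 : C * (1 + |(inner ℝ x (mv ν s ρ r j) : ℝ)|) ≤ C * (1 + M) * (1 + ‖x‖) := by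
      have : 1 + |(inner ℝ x (mv ν s ρ r j) : ℝ)| ≤ (1 + M) * (1 + ‖x‖) := by nlinarith
      calc _ ≤ C * ((1 + M) * (1 + ‖x‖)) := mul_le_mul_of_nonneg_left this hC0
        _ = _ := by ring
    calc _ ≤ (M * (1 + ‖x‖)) * (C * (1 + M) * (1 + ‖x‖)) :=
          mul_le_mul h1 (h2.trans h3) (abs_nonneg _) (by positivity)
      _ = _ := by ring
  have hsq : ∀ j, |(inner ℝ x (mv ν s ρ r j) : ℝ) ^ 2 * v2 (inner ℝ x (mv ν s ρ r j))| ≤ M ^ 2 * C * (1 + ‖x‖) ^ 2 := by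
    intro j
    rw [abs_mul, abs_pow]
    have h1 := hwj r hr x j
    have h2 := (hC (inner ℝ x (mv ν s ρ r j))).2
    calc _ ≤ (M * (1 + ‖x‖)) ^ 2 * C := mul_le_mul (pow_le_pow_left₀ (abs_nonneg _) h1 2) h2 (abs_nonneg _) (by positivity)
      _ = _ := by ring
  refine ⟨?_, ?_, ?_⟩
  · rw [gib, abs_of_pos (Real.exp_pos _)]
    have h1 : ∑ j, (|(inner ℝ x (mv ν s ρ r j) : ℝ)| - 1) ≤ ∑ j, v (inner ℝ x (mv ν s ρ r j)) :=
      Finset.sum_le_sum fun j _ => hw.lower _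
    rw [Finset.sum_sub_distrib] at h1
    simp only [Finset.sum_const, Finset.card_univ, Fintype.card_fin, nsmul_eq_mul, mul_one] at h1
    have h2 : Real.exp (-S) * (a * ‖x‖) ≤ ∑ j, |(inner ℝ x (mv ν s ρ r j) : ℝ)| := by
      refine (mul_le_mul_of_nonneg_left (hab x) (Real.exp_pos _).le).trans ?_
      rw [Finset.mul_sum]
      refine Finset.sum_le_sum fun j _ => ?_
      rw [inner_mv, abs_mul, abs_of_pos (Real.exp_pos _), div_one]
      exact mul_le_mul_of_nonneg_right (hexp r hr j).1 (abs_nonneg _)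
    have h3 : 0 ≤ e * ‖x‖ ^ 2 := by positivity
    have h4 : Real.exp (-(∑ j, v (inner ℝ x (mv ν s ρ r j))) - e * ‖x‖ ^ 2) ≤ Real.exp J * Real.exp (-(Real.exp (-S) * a * ‖x‖)) := by
      rw [← Real.exp_add]
      refine Real.exp_le_exp.2 ?_
      linarith
    refine h4.trans (mul_le_mul_of_nonneg_right ?_ (Real.exp_pos _).le)
    linarith
  · have h1 : |obs1 v1 (mv ν s ρ r) ρ x| ≤ P1 * (1 + ‖x‖) ^ 2 := by
      rw [obs1]
      refine (Finset.abs_sum_le_sum_abs _ _).trans ?_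
      calc _ ≤ ∑ j, |ρ j| * (M * (C * (1 + M)) * (1 + ‖x‖) ^ 2) := by
            refine Finset.sum_le_sum fun j _ => ?_
            rw [abs_mul]
            exact mul_le_mul_of_nonneg_left (hbase j) (abs_nonneg _)
        _ = _ := by
          rw [← Finset.sum_mul]
          ring
    refine h1.trans (mul_le_mul_of_nonneg_right ?_ (by positivity))
    linarith [Real.exp_pos J]
  · have h1 : |obs2 v1 v2 (mv ν s ρ r) ρ x| ≤ P2 * (1 + ‖x‖) ^ 2 := by
      rw [obs2]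
      refine (Finset.abs_sum_le_sum_abs _ _).trans ?_
      calc _ ≤ ∑ j, ρ j ^ 2 * ((M * (C * (1 + M)) + M ^ 2 * C) * (1 + ‖x‖) ^ 2) := by
            refine Finset.sum_le_sum fun j _ => ?_
            rw [abs_mul, abs_of_nonneg (sq_nonneg (ρ j))]
            refine mul_le_mul_of_nonneg_left ?_ (sq_nonneg _)
            refine (abs_add_le _ _).trans ?_
            linarith [hbase j, hsq j]
        _ = _ := by
          rw [← Finset.sum_mul]
          ring
    refine h1.trans (mul_le_mul_of_nonneg_right ?_ (by positivity))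
    linarith [Real.exp_pos J]

/-- first and second derivative of the partition function -/
theorem hasDerivAt_part (hν : ∀ x : EV n, (∀ j, (inner ℝ x (ν j) : ℝ) = 0) → x = 0) (he : 0 ≤ e) (r0 : ℝ) :
    Integrable (gib v e (mv ν s ρ r0)) ∧ Integrable (fun x => obs1 v1 (mv ν s ρ r0) ρ x ^ 2 * gib v e (mv ν s ρ r0) x) ∧
    Integrable (fun x => obs2 v1 v2 (mv ν s ρ r0) ρ x * gib v e (mv ν s ρ r0) x) ∧
    HasDerivAt (fun r => ∫ x, gib v e (mv ν s ρ r) x) (∫ x, obs1 v1 (mv ν s ρ r0) ρ x * gib v e (mv ν s ρ r0) x) r0 ∧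
    HasDerivAt (fun r => ∫ x, obs1 v1 (mv ν s ρ r) ρ x * gib v e (mv ν s ρ r) x)
      (∫ x, (obs1 v1 (mv ν s ρ r0) ρ x ^ 2 - obs2 v1 v2 (mv ν s ρ r0) ρ x) * gib v e (mv ν s ρ r0) x) r0 := by
  obtain ⟨a, P, ha, hP, hb⟩ := bound_obs ν s ρ hw e hν he (|r0| + 1) (by positivity)
  have hcg := fun r => continuous_gib hw e (mv ν s ρ r)
  have hc1 := fun r => continuous_obs1 hw (mv ν s ρ r) ρ
  have hc2 := fun r => continuous_obs2 hw (mv ν s ρ r) ρ
  have hball : ∀ r ∈ ball r0 1, |r| ≤ |r0| + 1 := by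
    intro r hr
    have h1 : |r - r0| < 1 := by simpa [Real.dist_eq] using hr
    have h2 : |r| ≤ |r - r0| + |r0| := by
      have := abs_add_le (r - r0) r0
      simpa using this
    linarith
  have hr0 : |r0| ≤ |r0| + 1 := by linarith
  have hI := fun m : ℕ => integrable_pow_exp (n := n) ha m
  have hg : Integrable (gib v e (mv ν s ρ r0)) := by
    refine ((hI 0).const_mul P).mono' (hcg r0).aestronglyMeasurable (Eventually.of_forall fun x => ?_)
    rw [Real.norm_eq_abs]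
    simpa using (hb r0 hr0 x).1
  have h1g : ∀ r, |r| ≤ |r0| + 1 → ∀ x : EV n, |obs1 v1 (mv ν s ρ r) ρ x * gib v e (mv ν s ρ r) x| ≤
      (P * P) * ((1 + ‖x‖) ^ 2 * Real.exp (-(a * ‖x‖))) := by
    intro r hr x
    obtain ⟨b1, b2, b3⟩ := hb r hr x
    rw [abs_mul]
    calc _ ≤ (P * (1 + ‖x‖) ^ 2) * (P * Real.exp (-(a * ‖x‖))) := mul_le_mul b2 b1 (abs_nonneg _) (by positivity)
      _ = _ := by ring
  have h2g : ∀ r, |r| ≤ |r0| + 1 → ∀ x : EV n, |obs2 v1 v2 (mv ν s ρ r) ρ x * gib v e (mv ν s ρ r) x| ≤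
      (P * P) * ((1 + ‖x‖) ^ 2 * Real.exp (-(a * ‖x‖))) := by
    intro r hr x
    obtain ⟨b1, b2, b3⟩ := hb r hr x
    rw [abs_mul]
    calc _ ≤ (P * (1 + ‖x‖) ^ 2) * (P * Real.exp (-(a * ‖x‖))) := mul_le_mul b3 b1 (abs_nonneg _) (by positivity)
      _ = _ := by ring
  have h11g : ∀ r, |r| ≤ |r0| + 1 → ∀ x : EV n, |obs1 v1 (mv ν s ρ r) ρ x ^ 2 * gib v e (mv ν s ρ r) x| ≤
      (P ^ 2 * P) * ((1 + ‖x‖) ^ 4 * Real.exp (-(a * ‖x‖))) := by
    intro r hr x
    obtain ⟨b1, b2, b3⟩ := hb r hr x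
    rw [abs_mul, abs_pow]
    calc _ ≤ (P * (1 + ‖x‖) ^ 2) ^ 2 * (P * Real.exp (-(a * ‖x‖))) :=
          mul_le_mul (pow_le_pow_left₀ (abs_nonneg _) b2 2) b1 (abs_nonneg _) (by positivity)
      _ = _ := by ring
  have hI1 : Integrable (fun x => obs1 v1 (mv ν s ρ r0) ρ x * gib v e (mv ν s ρ r0) x) := by
    refine ((hI 2).const_mul (P * P)).mono' ((hc1 r0).mul (hcg r0)).aestronglyMeasurable (Eventually.of_forall fun x => ?_)
    rw [Real.norm_eq_abs]
    exact h1g r0 hr0 x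
  have hI2 : Integrable (fun x => obs2 v1 v2 (mv ν s ρ r0) ρ x * gib v e (mv ν s ρ r0) x) := by
    refine ((hI 2).const_mul (P * P)).mono' ((hc2 r0).mul (hcg r0)).aestronglyMeasurable (Eventually.of_forall fun x => ?_)
    rw [Real.norm_eq_abs]
    exact h2g r0 hr0 x
  have hI11 : Integrable (fun x => obs1 v1 (mv ν s ρ r0) ρ x ^ 2 * gib v e (mv ν s ρ r0) x) := by
    refine ((hI 4).const_mul (P ^ 2 * P)).mono' (((hc1 r0).pow 2).mul (hcg r0)).aestronglyMeasurable (Eventually.of_forall fun x => ?_)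
    rw [Real.norm_eq_abs]
    exact h11g r0 hr0 x
  refine ⟨hg, hI11, hI2, ?_, ?_⟩
  · refine (hasDerivAt_integral_of_dominated_loc_of_deriv_le (bound := fun x => (P * P) * ((1 + ‖x‖) ^ 2 * Real.exp (-(a * ‖x‖))))
      (ball_mem_nhds r0 one_pos) (Eventually.of_forall fun r => (hcg r).aestronglyMeasurable) hg
      ((hc1 r0).mul (hcg r0)).aestronglyMeasurable (Eventually.of_forall fun x r hr => ?_) ((hI 2).const_mul _)
      (Eventually.of_forall fun x r hr => hasDerivAt_gib ν s ρ hw e r x)).2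
    rw [Real.norm_eq_abs]
    exact h1g r (hball r hr) x
  · refine (hasDerivAt_integral_of_dominated_loc_of_deriv_le
      (F := fun r x => obs1 v1 (mv ν s ρ r) ρ x * gib v e (mv ν s ρ r) x)
      (F' := fun r x => (obs1 v1 (mv ν s ρ r) ρ x ^ 2 - obs2 v1 v2 (mv ν s ρ r) ρ x) * gib v e (mv ν s ρ r) x)
      (bound := fun x => (P ^ 2 * P) * ((1 + ‖x‖) ^ 4 * Real.exp (-(a * ‖x‖))) + (P * P) * ((1 + ‖x‖) ^ 2 * Real.exp (-(a * ‖x‖))))
      (ball_mem_nhds r0 one_pos) (Eventually.of_forall fun r => ((hc1 r).mul (hcg r)).aestronglyMeasurable) hI1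
      ((((hc1 r0).pow 2).sub (hc2 r0)).mul (hcg r0)).aestronglyMeasurable (Eventually.of_forall fun x r hr => ?_)
      (((hI 4).const_mul _).add ((hI 2).const_mul _))
      (Eventually.of_forall fun x r hr => hasDerivAt_obs1_gib ν s ρ hw e r x)).2
    rw [Real.norm_eq_abs, sub_mul]
    refine (abs_sub _ _).trans (add_le_add (h11g r (hball r hr) x) (h2g r (hball r hr) x))

/-- the local inequality gives the soft inequality -/
theorem soft_of_local (he : 0 ≤ e) (H : LocalIneq v v1 v2 e) (n J : ℕ) (ν : Fin J → EV n) (hn : 0 < n)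
    (hν : ∀ x : EV n, (∀ j, (inner ℝ x (ν j) : ℝ) = 0) → x = 0)
    (g h : Fin J → ℝ) (t : ℝ) (hg : ∀ j, 0 < g j) (hh : ∀ j, 0 < h j) (ht0 : 0 ≤ t) (ht1 : t ≤ 1) :
    softInt v e ν g ^ (1 - t) * softInt v e ν h ^ t ≤ softInt v e ν (fun j => g j ^ (1 - t) * h j ^ t) := by
  set s : Fin J → ℝ := fun j => Real.log (g j) with hs
  set ρ : Fin J → ℝ := fun j => Real.log (h j) - Real.log (g j) with hρ
  set F : ℝ → ℝ := fun r => ∫ x, gib v e (mv ν s ρ r) x with hF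
  have hsoft : ∀ r : ℝ, softInt v e ν (fun j => Real.exp (s j + r * ρ j)) = F r := by
    intro r
    simp only [softInt, hF, gib]
    refine integral_congr_ae (Eventually.of_forall fun x => ?_)
    simp only
    congr 3
    refine Finset.sum_congr rfl fun j _ => ?_
    rw [inner_mv, Real.exp_neg, div_eq_inv_mul]
  have e0 : softInt v e ν g = F 0 := by
    rw [← hsoft 0]
    congr 1
    funext j
    simp only [hs, zero_mul, add_zero]
    exact (Real.exp_log (hg j)).symm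
  have e1 : softInt v e ν h = F 1 := by
    rw [← hsoft 1]
    congr 1
    funext j
    simp only [hs, hρ, one_mul, add_sub_cancel]
    exact (Real.exp_log (hh j)).symm
  have et : softInt v e ν (fun j => g j ^ (1 - t) * h j ^ t) = F t := by
    rw [← hsoft t]
    congr 1
    funext j
    rw [Real.rpow_def_of_pos (hg j), Real.rpow_def_of_pos (hh j), ← Real.exp_add]
    congr 1
    simp only [hs, hρ]
    ring
  rw [e0, e1, et]
  have hmvs : ∀ r, ∀ x : EV n, (∀ j, (inner ℝ x (mv ν s ρ r j) : ℝ) = 0) → x = 0 := by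
    intro r x hx
    refine hν x fun j => ?_
    have h1 := hx j
    rw [inner_mv] at h1
    rcases mul_eq_zero.1 h1 with h2 | h2
    · exact absurd h2 (Real.exp_pos _).ne'
    · exact h2
  obtain ⟨m, rfl⟩ : ∃ m, n = m + 1 := ⟨n - 1, by omega⟩
  have hFpos : ∀ r, 0 < F r := by
    intro r
    have h1 := (hasDerivAt_part ν s ρ hw e hν he r).1
    exact integral_exp_pos h1
  set A : ℝ → ℝ := fun r => ∫ x, obs1 v1 (mv ν s ρ r) ρ x * gib v e (mv ν s ρ r) x with hA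
  set A2 : ℝ → ℝ := fun r => ∫ x, (obs1 v1 (mv ν s ρ r) ρ x ^ 2 - obs2 v1 v2 (mv ν s ρ r) ρ x) * gib v e (mv ν s ρ r) x with hA2
  have hdF : ∀ r, HasDerivAt F (A r) r := fun r => (hasDerivAt_part ν s ρ hw e hν he r).2.2.2.1
  have hdA : ∀ r, HasDerivAt A (A2 r) r := fun r => (hasDerivAt_part ν s ρ hw e hν he r).2.2.2.2
  have hineq : ∀ r, A2 r * F r ≤ A r ^ 2 := by
    intro r
    have h1 := H (m + 1) J (mv ν s ρ r) hn (hmvs r) ρ
    have h2 : A2 r = (∫ x, obs1 v1 (mv ν s ρ r) ρ x ^ 2 * gib v e (mv ν s ρ r) x) - ∫ x, obs2 v1 v2 (mv ν s ρ r) ρ x * gib v e (mv ν s ρ r) x := by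
      rw [hA2, ← integral_sub (hasDerivAt_part ν s ρ hw e hν he r).2.1 (hasDerivAt_part ν s ρ hw e hν he r).2.2.1]
      refine integral_congr_ae (Eventually.of_forall fun x => ?_)
      simp only
      ring
    rw [h2, sub_mul]
    linarith
  have hconc : ConcaveOn ℝ univ (fun r => Real.log (F r)) := by
    refine concaveOn_of_hasDerivWithinAt2_nonpos (f' := fun r => A r / F r) (f'' := fun r => (A2 r * F r - A r * A r) / F r ^ 2)
      convex_univ ?_ ?_ ?_ ?_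
    · exact continuousOn_of_forall_continuousAt fun r _ => ((hdF r).log (hFpos r).ne').continuousAt
    · intro r _
      exact ((hdF r).log (hFpos r).ne').hasDerivWithinAt
    · intro r _
      exact ((hdA r).div (hdF r) (hFpos r).ne').hasDerivWithinAt
    · intro r _
      have := hineq r
      refine div_nonpos_of_nonpos_of_nonneg ?_ (sq_nonneg _)
      nlinarith
  have h3 := hconc.2 (mem_univ 0) (mem_univ 1) (by linarith : 0 ≤ 1 - t) ht0 (by ring)
  simp only [smul_eq_mul, mul_zero, mul_one, zero_add] at h3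
  rw [Real.rpow_def_of_pos (hFpos 0), Real.rpow_def_of_pos (hFpos 1), ← Real.exp_add, ← Real.le_log_iff_exp_le (hFpos t)]
  linarith

end

end Vale.Agent.P227.End
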