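import Vale.Agent.P227.Body

/-! # P227: end reduction, part B: log-concavity of intersections of slabs gives the logarithmic Brunn-Minkowski inequality -/

open MeasureTheory Set Metric Filter Topology
open scoped ENNReal NNReal

namespace Vale.Agent.P227.End

/-- intersection of slabs -/
def slab {n J : ℕ} (ν : Fin J → EV n) (h : Fin J → ℝ) : Set (EV n) := {x | ∀ j, |(inner ℝ x (ν j) : ℝ)| ≤ h j}

/-- log-Brunn-Minkowski for two families of parallel slabs -/
def SlabStmt : Prop := ∀ (n J : ℕ) (ν : Fin J → EV n), 0 < n → (∀ x : EV n, (∀ j, (inner ℝ x (ν j) : ℝ) = 0) → x = 0) →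
  ∀ (g h : Fin J → ℝ) (t : ℝ), (∀ j, 0 < g j) → (∀ j, 0 < h j) → 0 ≤ t → t ≤ 1 →
    (volume (slab ν g)).toReal ^ (1 - t) * (volume (slab ν h)).toReal ^ t ≤
      (volume (slab ν (fun j => g j ^ (1 - t) * h j ^ t))).toReal

/-- the standard basis followed by a finite part of a sequence -/
private noncomputable def fam {n : ℕ} (u : ℕ → EV n) (N : ℕ) : Fin (n + N) → EV n :=
  Fin.append (fun i : Fin n => EuclideanSpace.single i (1 : ℝ)) (fun i : Fin N => u i)

private theorem fam_left {n : ℕ} (u : ℕ → EV n) (N : ℕ) (i : Fin n) : fam u N (Fin.castAdd N i) = EuclideanSpace.single i (1 : ℝ) :=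
  Fin.append_left _ _ _

private theorem fam_right {n : ℕ} (u : ℕ → EV n) (N : ℕ) (i : Fin N) : fam u N (Fin.natAdd n i) = u i :=
  Fin.append_right _ _ _

private theorem slab_closed {n J : ℕ} (ν : Fin J → EV n) (h : Fin J → ℝ) : IsClosed (slab ν h) := by
  have : slab ν h = ⋂ j, {x | |(inner ℝ x (ν j) : ℝ)| ≤ h j} := by
    ext x
    simp [slab]
  rw [this]
  exact isClosed_iInter fun j => isClosed_le (by fun_prop) continuous_const

private theorem fam_span {n : ℕ} (u : ℕ → EV n) (N : ℕ) (x : EV n) (hx : ∀ j, (inner ℝ x (fam u N j) : ℝ) = 0) : x = 0 := by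
  ext i
  have h := hx (Fin.castAdd N i)
  rw [fam_left] at h
  simpa [EuclideanSpace.inner_single_right] using h

private theorem fam_bdd {n : ℕ} (u : ℕ → EV n) (N : ℕ) (h : Fin (n + N) → ℝ) : volume (slab (fam u N) h) ≠ ⊤ := by
  have hb : Bornology.IsBounded (slab (fam u N) h) := by
    rw [isBounded_iff_forall_norm_le]
    refine ⟨Real.sqrt (∑ i : Fin n, h (Fin.castAdd N i) ^ 2), fun x hx => ?_⟩
    rw [EuclideanSpace.norm_eq]
    refine Real.sqrt_le_sqrt (Finset.sum_le_sum fun i _ => ?_)
    have h1 := hx (Fin.castAdd N i)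
    rw [fam_left] at h1
    have h2 : |x i| ≤ h (Fin.castAdd N i) := by simpa [EuclideanSpace.inner_single_right] using h1
    rw [Real.norm_eq_abs]
    exact pow_le_pow_left₀ (abs_nonneg _) h2 2
  exact hb.measure_lt_top.ne

/-- slabs give the whole inequality -/
theorem log_bm_of_slab (H : SlabStmt) {n : ℕ} (hn : 0 < n) {K L : Set (EV n)} (hK : SymConvexBody K)
    (hL : SymConvexBody L) {t : ℝ} (ht0 : 0 ≤ t) (ht1 : t ≤ 1) :
    (volume K).toReal ^ (1 - t) * (volume L).toReal ^ t ≤ (volume (logComb t K L)).toReal := by
  obtain ⟨m, rfl⟩ : ∃ m, n = m + 1 := ⟨n - 1, by omega⟩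
  have : Nonempty (sphere (0 : EV (m + 1)) 1) := by
    refine ⟨⟨EuclideanSpace.single 0 1, ?_⟩⟩
    simp
  let u : ℕ → EV (m + 1) := fun i => (TopologicalSpace.denseSeq (sphere (0 : EV (m + 1)) 1) i : EV (m + 1))
  have hu1 : ∀ i, ‖u i‖ = 1 := fun i => mem_sphere_zero_iff_norm.1 (TopologicalSpace.denseSeq (sphere (0 : EV (m + 1)) 1) i).2
  let f : EV (m + 1) → ℝ := fun v => supportFn K v ^ (1 - t) * supportFn L v ^ t
  have hKc := hK.continuous_supportFn
  have hLc := hL.continuous_supportFn
  have hfc : Continuous f :=
    (hKc.rpow_const fun v => Or.inr (by linarith)).mul (hLc.rpow_const fun v => Or.inr ht0)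
  have hfe : ∀ v, f (-v) = f v := fun v => by
    simp only [f]
    rw [hK.supportFn_neg, hL.supportFn_neg]
  -- nonzero vectors in the family
  have hfam0 : ∀ N j, fam u N j ≠ 0 := by
    intro N j
    refine Fin.addCases (fun i => ?_) (fun i => ?_) j
    · rw [fam_left]
      intro h
      have := congrArg (fun z : EV (m + 1) => z i) h
      simp at this
    · rw [fam_right]
      intro h
      have := hu1 i
      rw [h] at this
      simp at this
  have hstep : ∀ N, (volume K).toReal ^ (1 - t) * (volume L).toReal ^ t ≤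
      (volume (slab (fam u N) (fun j => f (fam u N j)))).toReal := by
    intro N
    have h1 := H (m + 1) (m + 1 + N) (fam u N) hn (fam_span u N) (fun j => supportFn K (fam u N j))
      (fun j => supportFn L (fam u N j)) t (fun j => hK.supportFn_pos (hfam0 N j)) (fun j => hL.supportFn_pos (hfam0 N j)) ht0 ht1
    refine le_trans ?_ h1
    have hsub : ∀ {A : Set (EV (m + 1))}, SymConvexBody A → A ⊆ slab (fam u N) (fun j => supportFn A (fam u N j)) := by
      intro A hA x hx j
      rw [abs_le]
      constructor
      · have h2 := inner_le_supportFn hA.isCompact (hA.symm x hx) (fam u N j)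
        rw [inner_neg_left] at h2
        linarith
      · exact inner_le_supportFn hA.isCompact hx _
    have hvK : (volume K).toReal ≤ (volume (slab (fam u N) (fun j => supportFn K (fam u N j)))).toReal :=
      ENNReal.toReal_mono (fam_bdd u N _) (measure_mono (hsub hK))
    have hvL : (volume L).toReal ≤ (volume (slab (fam u N) (fun j => supportFn L (fam u N j)))).toReal :=
      ENNReal.toReal_mono (fam_bdd u N _) (measure_mono (hsub hL))
    exact mul_le_mul (Real.rpow_le_rpow ENNReal.toReal_nonneg hvK (by linarith))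
      (Real.rpow_le_rpow ENNReal.toReal_nonneg hvL ht0) (Real.rpow_nonneg ENNReal.toReal_nonneg _)
      (Real.rpow_nonneg ENNReal.toReal_nonneg _)
  -- the slabs decrease to the Wulff body
  have hanti : Antitone fun N => slab (fam u N) (fun j => f (fam u N j)) := by
    refine antitone_nat_of_succ_le fun N x hx => ?_
    intro j
    refine Fin.addCases (fun i => ?_) (fun i => ?_) j
    · have h := hx (Fin.castAdd (N + 1) i)
      have e1 := fam_left u (N + 1) i
      have e2 := fam_left u N i
      simp only [e1] at h
      simp only [e2]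
      exact h
    · have h := hx (Fin.natAdd (m + 1) (Fin.castSucc i))
      have e1 := fam_right u (N + 1) (Fin.castSucc i)
      have e2 := fam_right u N i
      simp only [e1] at h
      simp only [e2]
      exact h
  have hinter : (⋂ N, slab (fam u N) (fun j => f (fam u N j))) = logComb t K L := by
    ext x
    constructor
    · intro hx v hv
      have hx1 : ∀ i, inner ℝ x (u i) ≤ f (u i) := by
        intro i
        have h1 := mem_iInter.1 hx (i + 1) (Fin.natAdd (m + 1) (Fin.last i))
        have e1 := fam_right u (i + 1) (Fin.last i)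
        simp only [e1] at h1
        exact (le_abs_self _).trans h1
      have hcl : IsClosed {w : sphere (0 : EV (m + 1)) 1 | inner ℝ x (w : EV (m + 1)) ≤ f w} :=
        isClosed_le (by fun_prop) (hfc.comp continuous_subtype_val)
      have hd := TopologicalSpace.denseRange_denseSeq (sphere (0 : EV (m + 1)) 1)
      have hall : {w : sphere (0 : EV (m + 1)) 1 | inner ℝ x (w : EV (m + 1)) ≤ f w} = univ := by
        refine hcl.closure_eq ▸ (hd.mono ?_).closure_eq
        rintro _ ⟨i, rfl⟩
        exact hx1 i
      have h3 : (⟨v, mem_sphere_zero_iff_norm.2 hv⟩ : sphere (0 : EV (m + 1)) 1) ∈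
          {w : sphere (0 : EV (m + 1)) 1 | inner ℝ x (w : EV (m + 1)) ≤ f w} := by
        rw [hall]
        trivial
      exact h3
    · intro hx
      rw [mem_iInter]
      intro N j
      have hone : ‖fam u N j‖ = 1 := by
        refine Fin.addCases (fun i => ?_) (fun i => ?_) j
        · rw [fam_left]
          simp
        · rw [fam_right]
          exact hu1 i
      rw [abs_le]
      constructor
      · have h1 := hx (-fam u N j) (by rw [norm_neg]; exact hone)
        have h2 : f (-fam u N j) = f (fam u N j) := hfe _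
        have h3 : inner ℝ x (-fam u N j) ≤ f (-fam u N j) := h1
        rw [inner_neg_right, h2] at h3
        linarith
      · exact hx _ hone
  have hlim := tendsto_measure_iInter_atTop (μ := (volume : Measure (EV (m + 1))))
    (fun N => (slab_closed (fam u N) (fun j => f (fam u N j))).measurableSet.nullMeasurableSet) hanti ⟨0, fam_bdd u 0 _⟩
  rw [hinter] at hlim
  have hfin : volume (logComb t K L) ≠ ⊤ := by
    rw [← hinter]
    exact ((measure_mono (iInter_subset (fun N => slab (fam u N) (fun j => f (fam u N j))) 0)).trans_lt (fam_bdd u 0 _).lt_top).ne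
  have hlim2 := (ENNReal.tendsto_toReal hfin).comp hlim
  exact ge_of_tendsto' hlim2 hstep

end Vale.Agent.P227.End
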