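import Vale.Agent.P227.End.Slab

/-! # P227: end reduction, part A: soft walls give slabs -/

open MeasureTheory Set Metric Filter Topology
open scoped ENNReal NNReal

namespace Vale.Agent.P227.End

/-- the integral of the Gibbs weight with soft walls `v (⟪x, ν j⟫ / h j)` and a Gaussian term -/
noncomputable def softInt {n J : ℕ} (v : ℝ → ℝ) (e : ℝ) (ν : Fin J → EV n) (h : Fin J → ℝ) : ℝ :=
  ∫ x : EV n, Real.exp (-(∑ j, v ((inner ℝ x (ν j) : ℝ) / h j)) - e * ‖x‖ ^ 2)

/-- `exp (-a ‖x‖)` is integrable -/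
theorem integrable_exp_neg_norm {n : ℕ} {a : ℝ} (ha : 0 < a) : Integrable (fun x : EV n => Real.exp (-(a * ‖x‖))) := by
  have h1 : Integrable (fun x : EV n => (1 + ‖x‖) ^ (-((n : ℝ) + 1))) := by
    refine integrable_one_add_norm ?_
    simp
  have h2 : Integrable (fun x : EV n => (Real.exp a * ((n + 1).factorial / a ^ (n + 1))) * (1 + ‖x‖) ^ (-((n : ℝ) + 1))) :=
    h1.const_mul _
  refine h2.mono' (by fun_prop) (Eventually.of_forall fun x => ?_)
  rw [Real.norm_eq_abs, abs_of_pos (Real.exp_pos _)]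
  have hp : (0 : ℝ) < 1 + ‖x‖ := by positivity
  have h3 := Real.pow_div_factorial_le_exp (a * (1 + ‖x‖)) (by positivity) (n + 1)
  have h4 : Real.exp (-(a * ‖x‖)) = Real.exp a * (Real.exp (a * (1 + ‖x‖)))⁻¹ := by
    rw [← Real.exp_neg, ← Real.exp_add]
    congr 1
    ring
  rw [h4, mul_assoc]
  refine mul_le_mul_of_nonneg_left ?_ (Real.exp_pos _).le
  have h5 : (1 + ‖x‖) ^ (-((n : ℝ) + 1)) = ((1 + ‖x‖) ^ (n + 1))⁻¹ := by
    rw [Real.rpow_neg hp.le]
    congr 1
    exact_mod_cast Real.rpow_natCast (1 + ‖x‖) (n + 1)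
  rw [h5, mul_pow] at *
  have h6 : (0 : ℝ) < (n + 1).factorial := by exact_mod_cast Nat.factorial_pos _
  have h7 : 0 < a ^ (n + 1) * (1 + ‖x‖) ^ (n + 1) / ((n + 1).factorial : ℝ) := by positivity
  calc (Real.exp (a * (1 + ‖x‖)))⁻¹ ≤ (a ^ (n + 1) * (1 + ‖x‖) ^ (n + 1) / ((n + 1).factorial : ℝ))⁻¹ := inv_anti₀ h7 h3
    _ = _ := by
      field_simp

/-- a spanning family controls the norm -/
theorem exists_norm_le {n J : ℕ} (ν : Fin J → EV n) (hν : ∀ x : EV n, (∀ j, (inner ℝ x (ν j) : ℝ) = 0) → x = 0)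
    (h : Fin J → ℝ) (hh : ∀ j, 0 < h j) : ∃ a : ℝ, 0 < a ∧ ∀ x : EV n, a * ‖x‖ ≤ ∑ j, |(inner ℝ x (ν j) : ℝ) / h j| := by
  let T : EV n →ₗ[ℝ] (Fin J → ℝ) :=
    { toFun := fun x j => (inner ℝ x (ν j) : ℝ) / h j
      map_add' := fun x y => by
        ext j
        simp [inner_add_left, add_div]
      map_smul' := fun c x => by
        ext j
        simp [inner_smul_left, mul_div_assoc] }
  have hT : LinearMap.ker T = ⊥ := by
    rw [LinearMap.ker_eq_bot']
    intro x hx
    refine hν x fun j => ?_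
    have := congrFun hx j
    have h1 : (inner ℝ x (ν j) : ℝ) / h j = 0 := this
    rcases div_eq_zero_iff.1 h1 with h2 | h2
    · exact h2
    · exact absurd h2 (hh j).ne'
  obtain ⟨K, hK0, hK⟩ := LinearMap.exists_antilipschitzWith T hT
  refine ⟨(K : ℝ)⁻¹, by positivity, fun x => ?_⟩
  have h1 := hK.le_mul_dist x 0
  rw [map_zero, dist_zero_right, dist_zero_right] at h1
  have h2 : ‖T x‖ ≤ ∑ j, |(inner ℝ x (ν j) : ℝ) / h j| := by
    refine (pi_norm_le_iff_of_nonneg (by positivity)).2 fun j => ?_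
    rw [Real.norm_eq_abs]
    exact Finset.single_le_sum (f := fun j => |(inner ℝ x (ν j) : ℝ) / h j|) (fun i _ => abs_nonneg _) (Finset.mem_univ j)
  have hK0' : (0 : ℝ) < K := by exact_mod_cast hK0
  rw [inv_mul_le_iff₀ hK0']
  exact h1.trans (mul_le_mul_of_nonneg_left h2 hK0'.le)

/-- affine hyperplanes are null sets -/
theorem null_plane {n : ℕ} (ν : EV n) {c : ℝ} (hc : c ≠ 0) : volume {x : EV n | (inner ℝ x ν : ℝ) = c} = 0 := by
  by_cases hne : ∃ x0 : EV n, (inner ℝ x0 ν : ℝ) = c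
  · obtain ⟨x0, hx0⟩ := hne
    let φ : EV n →ₗ[ℝ] ℝ := (innerₗ (EV n)) ν
    have hφ : ∀ x, φ x = inner ℝ x ν := fun x => by
      change inner ℝ ν x = inner ℝ x ν
      exact real_inner_comm x ν
    have hset : {x : EV n | (inner ℝ x ν : ℝ) = c} = (fun x => x + (-x0)) ⁻¹' (LinearMap.ker φ : Set (EV n)) := by
      ext x
      simp only [mem_ofPred_eq, mem_preimage, SetLike.mem_coe, LinearMap.mem_ker, hφ, inner_add_left,
        inner_neg_left, hx0]
      constructor
      · intro h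
        linarith
      · intro h
        linarith
    rw [hset, measure_preimage_add_right]
    refine Measure.addHaar_submodule _ _ fun htop => hc ?_
    have : x0 ∈ LinearMap.ker φ := by
      rw [htop]
      trivial
    rw [LinearMap.mem_ker, hφ, hx0] at this
    exact this
  · have : {x : EV n | (inner ℝ x ν : ℝ) = c} = ∅ := by
      ext x
      simp only [mem_ofPred_eq, mem_empty_iff_false, iff_false]
      exact fun h => hne ⟨x, h⟩
    rw [this, measure_empty]

theorem null_boundary {n : ℕ} (ν : EV n) {c : ℝ} (hc : 0 < c) : volume {x : EV n | |(inner ℝ x ν : ℝ)| = c} = 0 := by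
  have hs : {x : EV n | |(inner ℝ x ν : ℝ)| = c} ⊆ {x : EV n | (inner ℝ x ν : ℝ) = c} ∪ {x : EV n | (inner ℝ x ν : ℝ) = -c} := by
    intro x hx
    have hx' : |(inner ℝ x ν : ℝ)| = c := hx
    rcases abs_eq hc.le |>.1 hx' with h | h
    · exact Or.inl h
    · exact Or.inr h
  refine measure_mono_null hs (measure_union_null (null_plane ν hc.ne') (null_plane ν (by linarith [hc] : -c ≠ 0)))

/-- the soft integrals converge to the volume of the intersection of slabs -/
theorem tendsto_softInt {n J : ℕ} (ν : Fin J → EV n) (hν : ∀ x : EV n, (∀ j, (inner ℝ x (ν j) : ℝ) = 0) → x = 0)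
    (h : Fin J → ℝ) (hh : ∀ j, 0 < h j) (v : ℕ → ℝ → ℝ) (e : ℕ → ℝ) (hvc : ∀ k, Continuous (v k))
    (hvb : ∀ k t, |t| - 1 ≤ v k t) (hv0 : ∀ t, |t| < 1 → Tendsto (fun k => v k t) atTop (𝓝 0))
    (hv1 : ∀ t, 1 < |t| → Tendsto (fun k => v k t) atTop atTop) (he0 : ∀ k, 0 ≤ e k) (he : Tendsto e atTop (𝓝 0)) :
    Tendsto (fun k => softInt (v k) (e k) ν h) atTop (𝓝 (volume (slab ν h)).toReal) := by
  obtain ⟨a, ha, hab⟩ := exists_norm_le ν hν h hh
  have hms : MeasurableSet (slab ν h) := by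
    have : slab ν h = ⋂ j, {x | |(inner ℝ x (ν j) : ℝ)| ≤ h j} := by
      ext x
      simp [slab]
    rw [this]
    exact MeasurableSet.iInter fun j => (isClosed_le (by fun_prop) continuous_const).measurableSet
  have hlim : (volume (slab ν h)).toReal = ∫ x : EV n, (slab ν h).indicator (fun _ => (1 : ℝ)) x := by
    rw [integral_indicator hms, setIntegral_const, smul_eq_mul, mul_one]
    rfl
  rw [hlim]
  refine tendsto_integral_of_dominated_convergence (fun x => Real.exp J * Real.exp (-(a * ‖x‖))) ?_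
    ((integrable_exp_neg_norm ha).const_mul _) ?_ ?_
  · intro k
    have := hvc k
    refine Continuous.aestronglyMeasurable ?_
    refine Real.continuous_exp.comp ?_
    refine Continuous.sub (Continuous.neg (continuous_finsetSum _ fun j _ => this.comp ?_)) (by fun_prop)
    fun_prop
  · intro k
    refine Eventually.of_forall fun x => ?_
    rw [Real.norm_eq_abs, abs_of_pos (Real.exp_pos _), ← Real.exp_add]
    refine Real.exp_le_exp.2 ?_
    have h1 : ∑ j, (|(inner ℝ x (ν j) : ℝ) / h j| - 1) ≤ ∑ j, v k ((inner ℝ x (ν j) : ℝ) / h j) :=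
      Finset.sum_le_sum fun j _ => hvb k _
    rw [Finset.sum_sub_distrib] at h1
    simp only [Finset.sum_const, Finset.card_univ, Fintype.card_fin, nsmul_eq_mul, mul_one] at h1
    have h2 := hab x
    have h3 : 0 ≤ e k * ‖x‖ ^ 2 := mul_nonneg (he0 k) (by positivity)
    linarith
  · have hae : ∀ᵐ x : EV n, ∀ j, |(inner ℝ x (ν j) : ℝ)| ≠ h j := by
      rw [ae_all_iff]
      intro j
      rw [ae_iff]
      simpa using null_boundary (ν j) (hh j)
    refine hae.mono fun x hx => ?_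
    have hex : Tendsto (fun k => e k * ‖x‖ ^ 2) atTop (𝓝 0) := by
      simpa using he.mul_const (‖x‖ ^ 2)
    by_cases hxs : x ∈ slab ν h
    · rw [indicator_of_mem hxs]
      have h1 : Tendsto (fun k => ∑ j, v k ((inner ℝ x (ν j) : ℝ) / h j)) atTop (𝓝 (∑ _j : Fin J, (0 : ℝ))) := by
        refine tendsto_finsetSum _ fun j _ => hv0 _ ?_
        rw [abs_div, abs_of_pos (hh j), div_lt_one (hh j)]
        exact lt_of_le_of_ne (hxs j) (hx j)
      rw [Finset.sum_const_zero] at h1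
      have h2 := (h1.neg.sub hex)
      have h3 := (Real.continuous_exp.tendsto _).comp h2
      simpa [Function.comp_def] using h3
    · rw [indicator_of_notMem hxs]
      have : ∃ j, h j < |(inner ℝ x (ν j) : ℝ)| := by
        by_contra hcon
        push Not at hcon
        exact hxs hcon
      obtain ⟨i, hi⟩ := this
      have h1 : Tendsto (fun k => v k ((inner ℝ x (ν i) : ℝ) / h i)) atTop atTop := by
        refine hv1 _ ?_
        rw [abs_div, abs_of_pos (hh i), one_lt_div (hh i)]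
        exact hi
      have h2 : Tendsto (fun k => (∑ j, v k ((inner ℝ x (ν j) : ℝ) / h j)) + e k * ‖x‖ ^ 2) atTop atTop := by
        refine tendsto_atTop_mono (fun k => ?_) (tendsto_atTop_add_const_right atTop (-(J : ℝ)) h1)
        have h3 : 0 ≤ e k * ‖x‖ ^ 2 := mul_nonneg (he0 k) (by positivity)
        have h4 : ∑ j, (v k ((inner ℝ x (ν j) : ℝ) / h j) + 1) ≥ v k ((inner ℝ x (ν i) : ℝ) / h i) := by
          have h5 : v k ((inner ℝ x (ν i) : ℝ) / h i) + 1 ≤ ∑ j, (v k ((inner ℝ x (ν j) : ℝ) / h j) + 1) :=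
            Finset.single_le_sum (f := fun j => v k ((inner ℝ x (ν j) : ℝ) / h j) + 1)
              (fun j _ => by
                have := hvb k ((inner ℝ x (ν j) : ℝ) / h j)
                have h6 := abs_nonneg ((inner ℝ x (ν j) : ℝ) / h j)
                linarith) (Finset.mem_univ i)
          linarith
        rw [Finset.sum_add_distrib] at h4
        simp only [Finset.sum_const, Finset.card_univ, Fintype.card_fin, nsmul_eq_mul, mul_one] at h4
        linarith
      have h3 := Real.tendsto_exp_neg_atTop_nhds_zero.comp h2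
      refine h3.congr fun k => ?_
      simp only [Function.comp]
      congr 1
      ring

/-- soft walls give the statement for slabs -/
theorem slab_of_soft (v : ℕ → ℝ → ℝ) (e : ℕ → ℝ) (hvc : ∀ k, Continuous (v k))
    (hvb : ∀ k t, |t| - 1 ≤ v k t) (hv0 : ∀ t, |t| < 1 → Tendsto (fun k => v k t) atTop (𝓝 0))
    (hv1 : ∀ t, 1 < |t| → Tendsto (fun k => v k t) atTop atTop) (he0 : ∀ k, 0 ≤ e k) (he : Tendsto e atTop (𝓝 0))
    (H : ∀ (k n J : ℕ) (ν : Fin J → EV n), 0 < n → (∀ x : EV n, (∀ j, (inner ℝ x (ν j) : ℝ) = 0) → x = 0) →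
      ∀ (g h : Fin J → ℝ) (t : ℝ), (∀ j, 0 < g j) → (∀ j, 0 < h j) → 0 ≤ t → t ≤ 1 →
      softInt (v k) (e k) ν g ^ (1 - t) * softInt (v k) (e k) ν h ^ t ≤
        softInt (v k) (e k) ν (fun j => g j ^ (1 - t) * h j ^ t)) : SlabStmt := by
  intro n J ν hn hν g h t hg hh ht0 ht1
  have hm : ∀ j, 0 < g j ^ (1 - t) * h j ^ t := fun j => mul_pos (Real.rpow_pos_of_pos (hg j) _) (Real.rpow_pos_of_pos (hh j) _)
  have h1 := tendsto_softInt ν hν g hg v e hvc hvb hv0 hv1 he0 he
  have h2 := tendsto_softInt ν hν h hh v e hvc hvb hv0 hv1 he0 he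
  have h3 := tendsto_softInt ν hν _ hm v e hvc hvb hv0 hv1 he0 he
  refine le_of_tendsto_of_tendsto' ((h1.rpow_const (Or.inr (by linarith))).mul (h2.rpow_const (Or.inr ht0))) h3 fun k => ?_
  exact H k n J ν hn hν g h t hg hh ht0 ht1

/-- soft walls give the whole logarithmic Brunn-Minkowski inequality -/
theorem log_bm_of_soft (v : ℕ → ℝ → ℝ) (e : ℕ → ℝ) (hvc : ∀ k, Continuous (v k))
    (hvb : ∀ k t, |t| - 1 ≤ v k t) (hv0 : ∀ t, |t| < 1 → Tendsto (fun k => v k t) atTop (𝓝 0))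
    (hv1 : ∀ t, 1 < |t| → Tendsto (fun k => v k t) atTop atTop) (he0 : ∀ k, 0 ≤ e k) (he : Tendsto e atTop (𝓝 0))
    (H : ∀ (k n J : ℕ) (ν : Fin J → EV n), 0 < n → (∀ x : EV n, (∀ j, (inner ℝ x (ν j) : ℝ) = 0) → x = 0) →
      ∀ (g h : Fin J → ℝ) (t : ℝ), (∀ j, 0 < g j) → (∀ j, 0 < h j) → 0 ≤ t → t ≤ 1 →
      softInt (v k) (e k) ν g ^ (1 - t) * softInt (v k) (e k) ν h ^ t ≤
        softInt (v k) (e k) ν (fun j => g j ^ (1 - t) * h j ^ t))
    {n : ℕ} (hn : 0 < n) {K L : Set (EV n)} (hK : SymConvexBody K)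
    (hL : SymConvexBody L) {t : ℝ} (ht0 : 0 ≤ t) (ht1 : t ≤ 1) :
    (volume K).toReal ^ (1 - t) * (volume L).toReal ^ t ≤ (volume (logComb t K L)).toReal :=
  log_bm_of_slab (slab_of_soft v e hvc hvb hv0 hv1 he0 he H) hn hK hL ht0 ht1

end Vale.Agent.P227.End
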