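import Vale.Agent.P227.End.Loc

/-! # P227: end reduction, part D: concrete smooth walls; the local inequality gives the logarithmic
Brunn-Minkowski inequality -/

open MeasureTheory Set Metric Filter Topology
open scoped ENNReal NNReal

namespace Vale.Agent.P227.End

/-- the smooth wall `log (1 + exp ((k+1) (t² - 1)))` -/
noncomputable def sp (k : ℕ) (t : ℝ) : ℝ := Real.log (1 + Real.exp (((k : ℝ) + 1) * (t ^ 2 - 1)))

/-- its first derivative -/
noncomputable def sp1 (k : ℕ) (t : ℝ) : ℝ :=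
  Real.exp (((k : ℝ) + 1) * (t ^ 2 - 1)) / (1 + Real.exp (((k : ℝ) + 1) * (t ^ 2 - 1))) * (2 * ((k : ℝ) + 1) * t)

/-- its second derivative -/
noncomputable def sp2 (k : ℕ) (t : ℝ) : ℝ :=
  Real.exp (((k : ℝ) + 1) * (t ^ 2 - 1)) / (1 + Real.exp (((k : ℝ) + 1) * (t ^ 2 - 1))) ^ 2 * (2 * ((k : ℝ) + 1) * t) ^ 2 +
    Real.exp (((k : ℝ) + 1) * (t ^ 2 - 1)) / (1 + Real.exp (((k : ℝ) + 1) * (t ^ 2 - 1))) * (2 * ((k : ℝ) + 1))

theorem sp_even (k : ℕ) (t : ℝ) : sp k (-t) = sp k t := by simp [sp]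

theorem sp1_odd (k : ℕ) (t : ℝ) : sp1 k (-t) = -sp1 k t := by simp [sp1]

theorem sp2_pos (k : ℕ) (t : ℝ) : 0 < sp2 k t := by
  unfold sp2
  have h1 : 0 ≤ Real.exp (((k : ℝ) + 1) * (t ^ 2 - 1)) / (1 + Real.exp (((k : ℝ) + 1) * (t ^ 2 - 1))) ^ 2 * (2 * ((k : ℝ) + 1) * t) ^ 2 := by
    positivity
  have h2 : 0 < Real.exp (((k : ℝ) + 1) * (t ^ 2 - 1)) / (1 + Real.exp (((k : ℝ) + 1) * (t ^ 2 - 1))) * (2 * ((k : ℝ) + 1)) := by
    positivity
  linarith

private theorem hasDerivAt_inner' (k : ℕ) (t : ℝ) :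
    HasDerivAt (fun t : ℝ => ((k : ℝ) + 1) * (t ^ 2 - 1)) (2 * ((k : ℝ) + 1) * t) t := by
  have h1 : HasDerivAt (fun t : ℝ => t ^ 2 - 1) (2 * t) t := by
    simpa using (hasDerivAt_pow 2 t).sub_const 1
  refine HasDerivAt.congr_deriv (h1.const_mul ((k : ℝ) + 1)) ?_
  ring

theorem contDiff_sp (k : ℕ) {m : WithTop ℕ∞} : ContDiff ℝ m (sp k) := by
  unfold sp
  refine ContDiff.log ?_ fun t => by positivity
  fun_prop

theorem wall_sp (k : ℕ) : Wall (sp k) (sp1 k) (sp2 k) where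
  d1 t := by
    have h1 := (hasDerivAt_inner' k t).exp.const_add 1
    have h2 := h1.log (by positivity)
    refine HasDerivAt.congr_deriv h2 ?_
    rw [sp1]
    ring
  d2 t := by
    have h1 := (hasDerivAt_inner' k t).exp
    have h2 := h1.const_add 1
    have hpos : (1 + Real.exp (((k : ℝ) + 1) * (t ^ 2 - 1))) ≠ 0 := by positivity
    have h3 := h1.div h2 hpos
    have h4 : HasDerivAt (fun t : ℝ => 2 * ((k : ℝ) + 1) * t) (2 * ((k : ℝ) + 1)) t := by
      simpa using (hasDerivAt_id t).const_mul (2 * ((k : ℝ) + 1))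
    have h5 := h3.mul h4
    refine HasDerivAt.congr_deriv h5 ?_
    rw [sp2]
    simp only [Pi.div_apply]
    field_simp
    ring
  cont2 := by
    unfold sp2
    refine Continuous.add (Continuous.mul (Continuous.div ?_ ?_ fun t => by positivity) ?_)
      (Continuous.mul (Continuous.div ?_ ?_ fun t => by positivity) ?_) <;> fun_prop
  lower t := by
    rw [sp]
    have hk : (0 : ℝ) ≤ k := Nat.cast_nonneg k
    rcases le_total |t| 1 with h | h
    · have : 0 ≤ Real.log (1 + Real.exp (((k : ℝ) + 1) * (t ^ 2 - 1))) :=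
        Real.log_nonneg (by linarith [Real.exp_pos (((k : ℝ) + 1) * (t ^ 2 - 1))])
      linarith
    · have h1 : ((k : ℝ) + 1) * (t ^ 2 - 1) ≤ Real.log (1 + Real.exp (((k : ℝ) + 1) * (t ^ 2 - 1))) := by
        rw [Real.le_log_iff_exp_le (by positivity)]
        linarith
      have h2 : |t| - 1 ≤ t ^ 2 - 1 := by
        have : |t| ^ 2 = t ^ 2 := sq_abs t
        nlinarith
      have h3 : 0 ≤ t ^ 2 - 1 := by linarith
      nlinarith
  growth := by
    refine ⟨4 * ((k : ℝ) + 1) ^ 2 + 2 * ((k : ℝ) + 1), by positivity, fun t => ?_⟩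
    have hk : (0 : ℝ) ≤ k := Nat.cast_nonneg k
    set E : ℝ := Real.exp (((k : ℝ) + 1) * (t ^ 2 - 1)) with hE
    have hE0 : 0 < E := Real.exp_pos _
    have hs : E / (1 + E) ≤ 1 := by
      rw [div_le_one (by positivity)]
      linarith
    have hs0 : 0 ≤ E / (1 + E) := by positivity
    have ht2 : t ^ 2 ≤ 1 + E := by
      rcases le_total (t ^ 2) 1 with h | h
      · linarith
      · have h1 : ((k : ℝ) + 1) * (t ^ 2 - 1) + 1 ≤ E := Real.add_one_le_exp _
        nlinarith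
    constructor
    · rw [sp1, ← hE, abs_mul, abs_of_nonneg hs0, abs_mul, abs_of_pos (by positivity : (0 : ℝ) < 2 * ((k : ℝ) + 1))]
      have h0 := abs_nonneg t
      calc E / (1 + E) * (2 * ((k : ℝ) + 1) * |t|) ≤ 1 * (2 * ((k : ℝ) + 1) * |t|) := mul_le_mul_of_nonneg_right hs (by positivity)
        _ ≤ _ := by nlinarith [mul_nonneg hk h0, sq_nonneg ((k : ℝ) + 1), mul_nonneg (sq_nonneg ((k : ℝ) + 1)) h0]
    · rw [abs_of_pos (sp2_pos k t), sp2, ← hE]
      have h1 : E / (1 + E) ^ 2 * (2 * ((k : ℝ) + 1) * t) ^ 2 ≤ 4 * ((k : ℝ) + 1) ^ 2 := by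
        have h2 : E / (1 + E) ^ 2 * t ^ 2 ≤ 1 := by
          rw [div_mul_eq_mul_div, div_le_one (by positivity)]
          nlinarith
        have h3 : E / (1 + E) ^ 2 * (2 * ((k : ℝ) + 1) * t) ^ 2 = 4 * ((k : ℝ) + 1) ^ 2 * (E / (1 + E) ^ 2 * t ^ 2) := by ring
        rw [h3]
        nlinarith [sq_nonneg ((k : ℝ) + 1)]
      have h4 : E / (1 + E) * (2 * ((k : ℝ) + 1)) ≤ 1 * (2 * ((k : ℝ) + 1)) := mul_le_mul_of_nonneg_right hs (by positivity)
      linarith

theorem tendsto_sp_zero (t : ℝ) (ht : |t| < 1) : Tendsto (fun k => sp k t) atTop (𝓝 0) := by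
  have h1 : Tendsto (fun k : ℕ => ((k : ℝ) + 1) * (t ^ 2 - 1)) atTop atBot := by
    have h2 : t ^ 2 - 1 < 0 := by
      have := sq_abs t
      have h0 := abs_nonneg t
      nlinarith
    exact (tendsto_atTop_add_const_right atTop 1 tendsto_natCast_atTop_atTop).atTop_mul_const_of_neg h2
  have h2 := (Real.tendsto_exp_atBot.comp h1).const_add 1
  have h3 := (Real.continuousAt_log (by norm_num : (1 : ℝ) + 0 ≠ 0)).tendsto.comp h2
  simpa [sp, Function.comp_def] using h3

theorem tendsto_sp_top (t : ℝ) (ht : 1 < |t|) : Tendsto (fun k => sp k t) atTop atTop := by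
  have h2 : 0 < t ^ 2 - 1 := by
    have := sq_abs t
    nlinarith
  have h1 : Tendsto (fun k : ℕ => ((k : ℝ) + 1) * (t ^ 2 - 1)) atTop atTop :=
    (tendsto_atTop_add_const_right atTop 1 tendsto_natCast_atTop_atTop).atTop_mul_const h2
  refine tendsto_atTop_mono (fun k => ?_) h1
  rw [sp, Real.le_log_iff_exp_le (by positivity)]
  linarith

/-- the local variance inequality for any sequence of walls converging to the hard wall gives the whole
logarithmic Brunn-Minkowski inequality -/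
theorem log_bm_of_walls (v v1 v2 : ℕ → ℝ → ℝ) (e : ℕ → ℝ) (hW : ∀ k, Wall (v k) (v1 k) (v2 k))
    (hv0 : ∀ t, |t| < 1 → Tendsto (fun k => v k t) atTop (𝓝 0))
    (hv1 : ∀ t, 1 < |t| → Tendsto (fun k => v k t) atTop atTop) (he0 : ∀ k, 0 ≤ e k) (he : Tendsto e atTop (𝓝 0))
    (H : ∀ k : ℕ, LocalIneq (v k) (v1 k) (v2 k) (e k))
    {n : ℕ} (hn : 0 < n) {K L : Set (EV n)} (hK : SymConvexBody K)
    (hL : SymConvexBody L) {t : ℝ} (ht0 : 0 ≤ t) (ht1 : t ≤ 1) :
    (volume K).toReal ^ (1 - t) * (volume L).toReal ^ t ≤ (volume (logComb t K L)).toReal := by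
  refine log_bm_of_soft v e (fun k => continuous_v (hW k)) (fun k => (hW k).lower) hv0 hv1 he0 he ?_ hn hK hL ht0 ht1
  intro k m J ν hm hν g h τ hg hh h0 h1
  exact soft_of_local (hW k) _ (he0 k) (H k) m J ν hm hν g h τ hg hh h0 h1

/-- the local variance inequality for the smooth walls gives the whole logarithmic Brunn-Minkowski inequality -/
theorem log_bm_of_local (H : ∀ k : ℕ, LocalIneq (sp k) (sp1 k) (sp2 k) (1 / ((k : ℝ) + 1)))
    {n : ℕ} (hn : 0 < n) {K L : Set (EV n)} (hK : SymConvexBody K)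
    (hL : SymConvexBody L) {t : ℝ} (ht0 : 0 ≤ t) (ht1 : t ≤ 1) :
    (volume K).toReal ^ (1 - t) * (volume L).toReal ^ t ≤ (volume (logComb t K L)).toReal := by
  refine log_bm_of_soft (fun k => sp k) (fun k => 1 / ((k : ℝ) + 1)) (fun k => (contDiff_sp k (m := 0)).continuous)
    (fun k t => (wall_sp k).lower t) tendsto_sp_zero tendsto_sp_top (fun k => by positivity)
    tendsto_one_div_add_atTop_nhds_zero_nat ?_ hn hK hL ht0 ht1
  intro k m J ν hm hν g h τ hg hh h0 h1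
  exact soft_of_local (wall_sp k) _ (by positivity) (H k) m J ν hm hν g h τ hg hh h0 h1

/-- version with a fixed family of data: it is enough to have the local inequality for all smooth even
uniformly convex walls with bounded second derivative -/
theorem log_bm_of_local_all (H : ∀ (v v1 v2 : ℝ → ℝ) (e : ℝ), Wall v v1 v2 → (∀ m : WithTop ℕ∞, ContDiff ℝ m v) →
      (∀ t, v (-t) = v t) → (∀ t, 0 < v2 t) → 0 < e → LocalIneq v v1 v2 e)
    {n : ℕ} (hn : 0 < n) {K L : Set (EV n)} (hK : SymConvexBody K)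
    (hL : SymConvexBody L) {t : ℝ} (ht0 : 0 ≤ t) (ht1 : t ≤ 1) :
    (volume K).toReal ^ (1 - t) * (volume L).toReal ^ t ≤ (volume (logComb t K L)).toReal :=
  log_bm_of_local (fun k => H _ _ _ _ (wall_sp k) (fun _ => contDiff_sp k) (sp_even k) (sp2_pos k) (by positivity))
    hn hK hL ht0 ht1

end Vale.Agent.P227.End
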